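import Mathlib

namespace Vale.Agent.H21.P015

/-- residues allowed modulo `p` -/
def A {k : ℕ} (r : ℕ → ℤ) (v : Fin k → ℤ × ℤ) (p : ℕ) : Finset ℕ :=
  (Finset.range p).filter (fun y => ∀ j, ¬ (p : ℤ) ∣ (y : ℤ) + (v j).1 + r p * (v j).2)

theorem card_A {k : ℕ} (r : ℕ → ℤ) (v : Fin k → ℤ × ℤ) (p : ℕ) (hp : p.Prime)
    (hF : Function.Injective (fun j => (((v j).1 + r p * (v j).2 : ℤ) : ZMod p))) :
    (A r v p).card + k ≤ p := by
  classical
  have hp0 : (0 : ℤ) < p := by exact_mod_cast hp.pos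
  let f : Fin k → ℕ := fun j => ((-((v j).1 + r p * (v j).2)) % (p : ℤ)).toNat
  have hf : ∀ j, ((f j : ℕ) : ℤ) = (-((v j).1 + r p * (v j).2)) % (p : ℤ) := fun j =>
    Int.toNat_of_nonneg (Int.emod_nonneg _ hp0.ne')
  have hinj : Function.Injective f := by
    intro i j hij
    apply hF
    show (((v i).1 + r p * (v i).2 : ℤ) : ZMod p) = (((v j).1 + r p * (v j).2 : ℤ) : ZMod p)
    have h1 : (-((v i).1 + r p * (v i).2)) % (p : ℤ) = (-((v j).1 + r p * (v j).2)) % (p : ℤ) := by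
      rw [← hf i, ← hf j, hij]
    have h2 : ((-((v i).1 + r p * (v i).2) : ℤ) : ZMod p) = ((-((v j).1 + r p * (v j).2) : ℤ) : ZMod p) :=
      (ZMod.intCast_eq_intCast_iff' _ _ p).2 h1
    rw [Int.cast_neg, Int.cast_neg] at h2
    exact neg_injective h2
  have hsub : Finset.univ.image f ⊆ Finset.range p \ A r v p := by
    intro y hy
    obtain ⟨j, -, rfl⟩ := Finset.mem_image.1 hy
    rw [Finset.mem_sdiff, Finset.mem_range]
    constructor
    · have := Int.emod_lt_of_pos (-((v j).1 + r p * (v j).2)) hp0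
      rw [← hf j] at this
      exact_mod_cast this
    · intro hA
      have hA' := (Finset.mem_filter.1 hA).2 j
      apply hA'
      rw [hf j, add_assoc]
      have := Int.emod_add_mul_ediv (-((v j).1 + r p * (v j).2)) (p : ℤ)
      refine ⟨-((-((v j).1 + r p * (v j).2)) / (p : ℤ)), ?_⟩
      linarith
  have h3 := Finset.card_le_card hsub
  have hAs : A r v p ⊆ Finset.range p := Finset.filter_subset _ _
  rw [Finset.card_image_of_injective _ hinj, Finset.card_univ, Fintype.card_fin,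
    Finset.card_sdiff_of_subset hAs, Finset.card_range] at h3
  have h4 : (A r v p).card ≤ p := by
    have := Finset.card_le_card hAs
    rw [Finset.card_range] at this
    exact this
  omega

/-- Row C. -/
theorem rowC (P : Finset ℕ) (hP : ∀ p ∈ P, p.Prime) (r : ℕ → ℤ) (k : ℕ)
    (F : Finset (Fin k → ℤ × ℤ)) (hk : ∀ p ∈ P, k ≤ p)
    (hF : ∀ v ∈ F, ∀ p ∈ P,
      Function.Injective (fun j => (((v j).1 + r p * (v j).2 : ℤ) : ZMod p)))
    (hlt : (F.card : ℝ) * ∏ p ∈ P, (1 - (k:ℝ)/p) < 1) :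
    ∃ x : ℕ, x < ∏ p ∈ P, p ∧ ∀ v ∈ F, ∃ j, ∃ p ∈ P,
      (p:ℤ) ∣ x + (v j).1 + r p * (v j).2 := by
  classical
  set N := ∏ p ∈ P, p with hN
  let Bad : (Fin k → ℤ × ℤ) → Finset ℕ := fun v =>
    (Finset.range N).filter (fun x => ∀ p ∈ P, x % p ∈ A r v p)
  have hBad : ∀ v ∈ F, (Bad v).card ≤ ∏ p ∈ P, (A r v p).card := by
    intro v _
    rw [← Finset.card_pi]
    apply Finset.card_le_card_of_injOn (fun x => fun p _ => x % p)
    · intro x hx
      rw [Finset.mem_coe, Finset.mem_filter] at hx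
      rw [Finset.mem_coe, Finset.mem_pi]
      exact hx.2
    · intro x hx y hy hxy
      rw [Finset.mem_coe, Finset.mem_filter, Finset.mem_range] at hx hy
      have h1 : ∀ p ∈ P, x ≡ y [MOD p] := fun p hp => by
        have := congrFun (congrFun hxy p) hp
        exact this
      have h2 : x ≡ y [MOD N] := by
        have h3 : ∀ p ∈ P, (p : ℤ) ∣ ((y : ℤ) - x) := fun p hp =>
          (Nat.modEq_iff_dvd.1 (h1 p hp))
        have h4 : (∏ p ∈ P, (p : ℤ)) ∣ ((y : ℤ) - x) := by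
          apply Finset.prod_dvd_of_coprime
          · intro a ha b hb hab
            have := (Nat.coprime_primes (hP a ha) (hP b hb)).2 hab
            exact Nat.isCoprime_iff_coprime.2 this
          · exact h3
        rw [Nat.modEq_iff_dvd]
        rw [hN]
        push_cast
        exact h4
      exact Nat.ModEq.eq_of_lt_of_lt h2 hx.1 hy.1
  by_contra hcon
  push Not at hcon
  have hcov : Finset.range N ⊆ F.biUnion Bad := by
    intro x hx
    rw [Finset.mem_range] at hx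
    obtain ⟨v, hv, h⟩ := hcon x hx
    rw [Finset.mem_biUnion]
    refine ⟨v, hv, ?_⟩
    rw [Finset.mem_filter, Finset.mem_range]
    refine ⟨hx, fun p hp => ?_⟩
    rw [A, Finset.mem_filter, Finset.mem_range]
    refine ⟨Nat.mod_lt _ (hP p hp).pos, fun j hd => h j p hp ?_⟩
    have h5 : ((x : ℤ)) = ((x % p : ℕ) : ℤ) + p * ((x / p : ℕ) : ℤ) := by
      exact_mod_cast (Nat.mod_add_div x p).symm
    rw [h5]
    obtain ⟨c, hc⟩ := hd
    refine ⟨c + ((x / p : ℕ) : ℤ), ?_⟩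
    rw [mul_add, ← hc]
    ring
  have h6 : N ≤ ∑ v ∈ F, ∏ p ∈ P, (A r v p).card := by
    calc N = (Finset.range N).card := (Finset.card_range N).symm
      _ ≤ (F.biUnion Bad).card := Finset.card_le_card hcov
      _ ≤ ∑ v ∈ F, (Bad v).card := Finset.card_biUnion_le
      _ ≤ _ := Finset.sum_le_sum hBad
  have h7 : ∀ v ∈ F, ((∏ p ∈ P, (A r v p).card : ℕ) : ℝ) ≤
      (∏ p ∈ P, (p : ℝ)) * ∏ p ∈ P, (1 - (k:ℝ)/p) := by
    intro v hv
    rw [← Finset.prod_mul_distrib, Nat.cast_prod]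
    apply Finset.prod_le_prod
    · intro p _; positivity
    · intro p hp
      have hc := card_A r v p (hP p hp) (hF v hv p hp)
      have hp0 : (0 : ℝ) < p := by exact_mod_cast (hP p hp).pos
      have h8 : (p : ℝ) * (1 - (k : ℝ) / p) = p - k := by field_simp
      rw [h8]
      have : ((A r v p).card : ℝ) + k ≤ p := by exact_mod_cast hc
      linarith
  have h9 : (N : ℝ) ≤ (F.card : ℝ) * ((∏ p ∈ P, (p : ℝ)) * ∏ p ∈ P, (1 - (k:ℝ)/p)) := by
    calc (N : ℝ) ≤ ((∑ v ∈ F, ∏ p ∈ P, (A r v p).card : ℕ) : ℝ) := by exact_mod_cast h6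
      _ = ∑ v ∈ F, ((∏ p ∈ P, (A r v p).card : ℕ) : ℝ) := by push_cast; rfl
      _ ≤ ∑ v ∈ F, (∏ p ∈ P, (p : ℝ)) * ∏ p ∈ P, (1 - (k:ℝ)/p) := Finset.sum_le_sum h7
      _ = _ := by rw [Finset.sum_const, nsmul_eq_mul]
  have hNr : (N : ℝ) = ∏ p ∈ P, (p : ℝ) := by rw [hN]; push_cast; rfl
  have hNpos : (0 : ℝ) < ∏ p ∈ P, (p : ℝ) := by
    apply Finset.prod_pos
    intro p hp
    exact_mod_cast (hP p hp).pos
  rw [hNr] at h9
  have : (F.card : ℝ) * ((∏ p ∈ P, (p : ℝ)) * ∏ p ∈ P, (1 - (k:ℝ)/p)) =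
      (∏ p ∈ P, (p : ℝ)) * ((F.card : ℝ) * ∏ p ∈ P, (1 - (k:ℝ)/p)) := by ring
  rw [this] at h9
  have h10 := mul_lt_mul_of_pos_left hlt hNpos
  rw [mul_one] at h10
  exact absurd h9 (not_le.2 h10)

end Vale.Agent.H21.P015
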